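import Vale.Agent.P092.H103.Lat

/-!
P092 (helper368), team D, block [D-CP]: the counting principle (R) of #4334 (2).  Part 1: the
counting inequality.

`E` is a locally compact group, `Λ` a lattice, `V` a unitary representation of `Λ` on `K`,
`iro hν V g` the induced representation on `L²(E ⧸ Λ; K)`.  `B` is decomposable.  The vectors
`T s (V v ω)` are orthonormal (`S` trivial: the vectors `V v ω` are orthonormal).  If every value `v`
of the cocycle `g ↦ coc Λ g x`, restricted to `g x ∈ Y`, has `m`-measure at most `c`, then the mean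
over `m` of the mass of `B π(g)* ω^` carried by the vectors `T s* d_k` is at most
`c Σ_k ‖B* d_k^‖²`.
-/

set_option linter.all false

open scoped InnerProductSpace ENNReal
open Set Filter Topology MeasureTheory ContinuousLinearMap

namespace Vale.Agent.P092.H368

open Vale.Agent.P092.H790 Vale.Agent.P092.H85 Vale.Agent.P092.H103

theorem esq {K : Type} [NormedAddCommGroup K] (x : K) : ‖x‖ₑ ^ 2 = ENNReal.ofReal (‖x‖ ^ 2) := by
  rw [← ofReal_norm, ENNReal.ofReal_pow (norm_nonneg _)]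

/-- Bessel inequality, in `ℝ≥0∞`. -/
theorem bessel {J K : Type} [NormedAddCommGroup K] [InnerProductSpace ℂ K] {e : J → K}
    (he : Orthonormal ℂ e) (y : K) : ∑' j, ‖⟪e j, y⟫_ℂ‖ₑ ^ 2 ≤ ‖y‖ₑ ^ 2 := by
  simp_rw [esq]
  rw [← ENNReal.ofReal_tsum_of_nonneg (fun j => by positivity) (he.inner_products_summable y)]
  exact ENNReal.ofReal_le_ofReal (he.tsum_inner_products_le y)

theorem lint_sq {X : Type*} [MeasurableSpace X] {μ : Measure X} {K : Type*} [NormedAddCommGroup K]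
    [InnerProductSpace ℂ K] (ξ : Lp K 2 μ) : ∫⁻ x, ‖ξ x‖ₑ ^ 2 ∂μ = ‖ξ‖ₑ ^ 2 := by
  rw [Lp.enorm_def]
  have h := eLpNorm_nnreal_pow_eq_lintegral (f := (ξ : X → K)) (μ := μ) (p := 2) (by norm_num)
  simp only [NNReal.coe_ofNat, ENNReal.coe_ofNat] at h
  have e1 : ∀ a : ℝ≥0∞, a ^ (2:ℝ) = a ^ 2 := fun a => by
    rw [← ENNReal.rpow_natCast]; norm_num
  simp_rw [e1] at h
  exact h.symm

section dec

variable {X : Type*} [MeasurableSpace X] {μ : Measure X} {K : Type*} [NormedAddCommGroup K]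
  [InnerProductSpace ℂ K] [CompleteSpace K]

theorem adj_ind {B : Lp K 2 μ →L[ℂ] Lp K 2 μ}
    (hB : ∀ A, MeasurableSet A → B * ind μ K A = ind μ K A * B) (A : Set X)
    (hA : MeasurableSet A) : adjoint B * ind μ K A = ind μ K A * adjoint B := by
  have h := congrArg adjoint (hB A hA)
  simp only [← star_eq_adjoint, star_mul] at h
  rw [star_eq_adjoint (ind μ K A), adjoint_ind hA] at h
  rw [← star_eq_adjoint]
  exact h.symm

theorem ind_inner {A : Set X} (hA : MeasurableSet A) (ξ η : Lp K 2 μ) :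
    ∫ x in A, ⟪ξ x, η x⟫_ℂ ∂μ = ⟪ind μ K A ξ, η⟫_ℂ := by
  rw [L2.inner_def, ← integral_indicator hA]
  refine integral_congr_ae ?_
  filter_upwards [ind_ae hA ξ] with x hx
  rw [hx]
  by_cases h : x ∈ A
  · rw [indicator_of_mem h, indicator_of_mem h]
  · rw [indicator_of_notMem h, indicator_of_notMem h, inner_zero_left]

/-- Decomposable operators: fibrewise adjoint. -/
theorem inner_ae {B : Lp K 2 μ →L[ℂ] Lp K 2 μ}
    (hB : ∀ A, MeasurableSet A → B * ind μ K A = ind μ K A * B) (ξ η : Lp K 2 μ) :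
    (fun x => ⟪ξ x, (B η) x⟫_ℂ) =ᵐ[μ] fun x => ⟪(adjoint B ξ) x, η x⟫_ℂ := by
  refine Integrable.ae_eq_of_forall_setIntegral_eq _ _ (L2.integrable_inner _ _)
    (L2.integrable_inner _ _) fun A hA _ => ?_
  rw [ind_inner hA, ind_inner hA]
  have e1 := congrArg (fun T : Lp K 2 μ →L[ℂ] Lp K 2 μ => T ξ) (adj_ind hB A hA)
  change adjoint B (ind μ K A ξ) = ind μ K A (adjoint B ξ) at e1
  rw [← e1, adjoint_inner_left]

end dec

/-- The mass of `y` carried by the vectors `T s* d_k`. -/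
noncomputable def ms {S ι K : Type} [NormedAddCommGroup K] [InnerProductSpace ℂ K]
    (T : S → K →L[ℂ] K) (d : ι → K) (y : K) : ℝ≥0∞ :=
  ∑' (k : ι) (s : S), ‖⟪d k, T s y⟫_ℂ‖ₑ ^ 2

theorem inn_meas {K : Type} [NormedAddCommGroup K] [InnerProductSpace ℂ K]
    (A : K →L[ℂ] K) (d : K) {Z : Type*} [MeasurableSpace Z] {f : Z → K}
    (hf : StronglyMeasurable f) : Measurable fun z => ‖⟪d, A (f z)⟫_ℂ‖ₑ ^ 2 := by
  have h1 : StronglyMeasurable fun z => ⟪d, A (f z)⟫_ℂ :=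
    (((innerSL ℂ d).continuous.comp A.continuous)).comp_stronglyMeasurable hf
  exact h1.enorm.pow_const 2

theorem ms_meas {S ι K : Type} [NormedAddCommGroup K] [InnerProductSpace ℂ K] [Countable S]
    [Countable ι] (T : S → K →L[ℂ] K) (d : ι → K) {Z : Type*} [MeasurableSpace Z] {f : Z → K}
    (hf : StronglyMeasurable f) : Measurable fun z => ms T d (f z) :=
  Measurable.ennreal_tsum fun k => Measurable.ennreal_tsum fun s => inn_meas (T s) (d k) hf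

section core

variable {E : Type} [Group E] [TopologicalSpace E] [IsTopologicalGroup E] [LocallyCompactSpace E]
  [SecondCountableTopology E] [T2Space E] [MeasurableSpace E] [BorelSpace E]
  {Λ : Subgroup E} [DiscreteTopology Λ] [MeasurableSpace (E ⧸ Λ)] [BorelSpace (E ⧸ Λ)]
  {ν : Measure (E ⧸ Λ)} [IsProbabilityMeasure ν] (hν : ∀ g : E, ν.map (fun x => g • x) = ν)
  {K : Type} [NormedAddCommGroup K] [InnerProductSpace ℂ K] [CompleteSpace K]
  {V : Λ →* (K →L[ℂ] K)} (hV : ∀ v, adjoint (V v) = V v⁻¹) [Countable Λ]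

theorem coc_jmeas (v : Λ) : MeasurableSet {p : E × (E ⧸ Λ) | coc Λ p.1 p.2 = v} := by
  haveI hcl : IsClosed (Λ : Set E) := Subgroup.isClosed_of_discrete
  have hsm : Measurable fun p : E × (E ⧸ Λ) => p.1 • p.2 := continuous_smul.measurable
  have e : {p : E × (E ⧸ Λ) | coc Λ p.1 p.2 = v} =
      (fun p : E × (E ⧸ Λ) => (sec Λ (p.1 • p.2))⁻¹ * p.1 * sec Λ p.2) ⁻¹' {(v : E)} := by
    ext p
    simp [Subtype.ext_iff, coc_coe]
  rw [e]
  have h1 : Measurable fun p : E × (E ⧸ Λ) => (sec Λ (p.1 • p.2))⁻¹ * p.1 * sec Λ p.2 :=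
    ((((sec_meas Λ).comp hsm).inv.mul measurable_fst).mul ((sec_meas Λ).comp measurable_snd))
  exact h1 (measurableSet_singleton _)

theorem coc_inv' (g : E) (x : E ⧸ Λ) : coc Λ g⁻¹ (g • x) = (coc Λ g x)⁻¹ := by
  have h := coc_mul Λ g⁻¹ g x
  have h1 : coc Λ 1 x = 1 := by
    apply Subtype.ext
    rw [coc_coe, one_smul]
    simp
  rw [inv_mul_cancel, h1] at h
  exact eq_inv_of_mul_eq_one_left h.symm

include hV in
/-- `π(g)* ω^` at `x` is `V(c(g, x)⁻¹) ω`. -/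
theorem iro_const (g : E) (ω : K) :
    ⇑(iro hν V g⁻¹ (Lp.const 2 ν ω)) =ᵐ[ν] fun x => V (coc Λ g x)⁻¹ ω := by
  have h1 : ⇑(Lp.const 2 ν ω : Lp K 2 ν) =ᵐ[ν] fun _ => ω := Lp.coeFn_const ..
  have h2 := ae_comp (⟨smul_meas Λ g, hν g⟩ : MeasurePreserving (fun x : E ⧸ Λ => g • x) ν ν) h1
  filter_upwards [iro_ae hν hV g⁻¹ (Lp.const 2 ν ω), h2] with x h3 h4
  rw [h3, inv_inv, coc_inv', h4]

include hV in
/-- The values of `B π(g)* ω^`. -/
theorem b_iro {B : Lp K 2 ν →L[ℂ] Lp K 2 ν}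
    (hB : ∀ A, MeasurableSet A → B * ind ν K A = ind ν K A * B) (g : E) (ω : K) :
    ⇑(B (iro hν V g⁻¹ (Lp.const 2 ν ω))) =ᵐ[ν]
      fun x => B (Lp.const 2 ν (V (coc Λ g x)⁻¹ ω)) x := by
  have key : ∀ v : Λ, ∀ᵐ x ∂ν, coc Λ g x = v →
      B (iro hν V g⁻¹ (Lp.const 2 ν ω)) x = B (Lp.const 2 ν (V v⁻¹ ω)) x := by
    intro v
    have hS := coc_meas Λ g v
    have h1 : ind ν K {x | coc Λ g x = v} (iro hν V g⁻¹ (Lp.const 2 ν ω)) =
        ind ν K {x | coc Λ g x = v} (Lp.const 2 ν (V v⁻¹ ω)) := by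
      refine Lp.ext ?_
      have c1 : ⇑(Lp.const 2 ν (V v⁻¹ ω) : Lp K 2 ν) =ᵐ[ν] fun _ => V v⁻¹ ω := Lp.coeFn_const ..
      filter_upwards [ind_ae hS (iro hν V g⁻¹ (Lp.const 2 ν ω)),
        ind_ae hS (Lp.const 2 ν (V v⁻¹ ω)), iro_const hν hV g ω, c1] with x a1 a2 a3 a4
      rw [a1, a2]
      by_cases hx : x ∈ {x | coc Λ g x = v}
      · rw [indicator_of_mem hx, indicator_of_mem hx, a3, a4, show coc Λ g x = v from hx]
      · rw [indicator_of_notMem hx, indicator_of_notMem hx]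
    have h2 : ind ν K {x | coc Λ g x = v} (B (iro hν V g⁻¹ (Lp.const 2 ν ω))) =
        ind ν K {x | coc Λ g x = v} (B (Lp.const 2 ν (V v⁻¹ ω))) := by
      have e1 := congrArg (fun T : Lp K 2 ν →L[ℂ] Lp K 2 ν => T (iro hν V g⁻¹ (Lp.const 2 ν ω)))
        (hB _ hS)
      have e2 := congrArg (fun T : Lp K 2 ν →L[ℂ] Lp K 2 ν => T (Lp.const 2 ν (V v⁻¹ ω)))
        (hB _ hS)
      change B (ind ν K _ _) = ind ν K _ (B _) at e1 e2
      rw [← e1, ← e2, h1]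
    filter_upwards [ind_ae hS (B (iro hν V g⁻¹ (Lp.const 2 ν ω))),
      ind_ae hS (B (Lp.const 2 ν (V v⁻¹ ω)))] with x a1 a2 hx
    have hx' : x ∈ {x | coc Λ g x = v} := hx
    rw [h2, a2, indicator_of_mem hx', indicator_of_mem hx'] at a1
    exact a1.symm
  filter_upwards [ae_all_iff.2 key] with x hx
  exact hx _ rfl

/-- The total mass over the whole orthonormal system. -/
theorem tot_le {S ι : Type} [Countable S] [Countable ι] {T : S → K →L[ℂ] K} {ω : K}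
    (hO : Orthonormal ℂ fun p : Λ × S => T p.2 (V p.1 ω)) (d : ι → K)
    {B : Lp K 2 ν →L[ℂ] Lp K 2 ν}
    (hB : ∀ A, MeasurableSet A → B * ind ν K A = ind ν K A * B)
    (hBT : ∀ s, B * (T s).compLpL 2 ν = (T s).compLpL 2 ν * B) :
    ∑' v : Λ, ∫⁻ x, ms T d (B (Lp.const 2 ν (V v ω)) x) ∂ν ≤
      ∑' k, ‖adjoint B (Lp.const 2 ν (d k))‖ₑ ^ 2 := by
  have hbm : ∀ v, StronglyMeasurable (⇑(B (Lp.const 2 ν (V v ω)))) := fun v =>
    Lp.stronglyMeasurable _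
  have hcm : ∀ k, StronglyMeasurable (⇑(adjoint B (Lp.const 2 ν (d k)))) := fun v =>
    Lp.stronglyMeasurable _
  -- the fibrewise identity
  have key : ∀ (v : Λ) (k : ι) (s : S),
      ∫⁻ x, ‖⟪d k, T s (B (Lp.const 2 ν (V v ω)) x)⟫_ℂ‖ₑ ^ 2 ∂ν =
        ∫⁻ x, ‖⟪T s (V v ω), adjoint B (Lp.const 2 ν (d k)) x⟫_ℂ‖ₑ ^ 2 ∂ν := by
    intro v k s
    have c0 : (T s).compLpL 2 ν (Lp.const 2 ν (V v ω)) = Lp.const 2 ν (T s (V v ω)) := by
      refine Lp.ext ?_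
      have c1 : ⇑(Lp.const 2 ν (V v ω) : Lp K 2 ν) =ᵐ[ν] fun _ => V v ω := Lp.coeFn_const ..
      have c2 : ⇑(Lp.const 2 ν (T s (V v ω)) : Lp K 2 ν) =ᵐ[ν] fun _ => T s (V v ω) :=
        Lp.coeFn_const ..
      filter_upwards [fld_comp (μ := ν) (T s) (Lp.const 2 ν (V v ω)), c1, c2] with x h1 h2 h3
      rw [h1, h2, h3]
    have c1 : (T s).compLpL 2 ν (B (Lp.const 2 ν (V v ω))) = B (Lp.const 2 ν (T s (V v ω))) := by
      rw [← c0]
      exact (congrArg (fun A : Lp K 2 ν →L[ℂ] Lp K 2 ν => A (Lp.const 2 ν (V v ω))) (hBT s)).symm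
    refine lintegral_congr_ae ?_
    have c2 : ⇑(Lp.const 2 ν (d k) : Lp K 2 ν) =ᵐ[ν] fun _ => d k := Lp.coeFn_const ..
    have c3 : ⇑(Lp.const 2 ν (T s (V v ω)) : Lp K 2 ν) =ᵐ[ν] fun _ => T s (V v ω) :=
      Lp.coeFn_const ..
    filter_upwards [fld_comp (μ := ν) (T s) (B (Lp.const 2 ν (V v ω))), c2, c3,
      inner_ae hB (Lp.const 2 ν (d k)) (Lp.const 2 ν (T s (V v ω)))] with x h1 h2 h3 h4
    rw [c1] at h1
    rw [h2, h3] at h4
    rw [← h1, h4, ← inner_conj_symm, RCLike.enorm_conj]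
  have hk : ∀ k : ι, ∑' v : Λ, ∑' s : S,
      ∫⁻ x, ‖⟪d k, T s (B (Lp.const 2 ν (V v ω)) x)⟫_ℂ‖ₑ ^ 2 ∂ν ≤
        ‖adjoint B (Lp.const 2 ν (d k))‖ₑ ^ 2 := by
    intro k
    simp_rw [key _ k _]
    rw [← ENNReal.tsum_prod (f := fun (v : Λ) (s : S) =>
      ∫⁻ x, ‖⟪T s (V v ω), adjoint B (Lp.const 2 ν (d k)) x⟫_ℂ‖ₑ ^ 2 ∂ν)]
    rw [← lintegral_tsum, ← lint_sq]
    · exact lintegral_mono fun x => bessel hO _
    · intro p
      have h1 : StronglyMeasurable fun x => ⟪T p.2 (V p.1 ω),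
          adjoint B (Lp.const 2 ν (d k)) x⟫_ℂ :=
        ((innerSL ℂ (T p.2 (V p.1 ω))).continuous).comp_stronglyMeasurable (hcm k)
      exact (h1.enorm.pow_const 2).aemeasurable
  calc ∑' v : Λ, ∫⁻ x, ms T d (B (Lp.const 2 ν (V v ω)) x) ∂ν
      = ∑' v : Λ, ∑' k : ι, ∑' s : S,
          ∫⁻ x, ‖⟪d k, T s (B (Lp.const 2 ν (V v ω)) x)⟫_ℂ‖ₑ ^ 2 ∂ν := by
        refine tsum_congr fun v => ?_
        unfold ms
        rw [lintegral_tsum fun k => (Measurable.ennreal_tsum fun s =>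
          inn_meas (T s) (d k) (hbm v)).aemeasurable]
        refine tsum_congr fun k => ?_
        rw [lintegral_tsum fun s => (inn_meas (T s) (d k) (hbm v)).aemeasurable]
    _ = ∑' k : ι, ∑' v : Λ, ∑' s : S,
          ∫⁻ x, ‖⟪d k, T s (B (Lp.const 2 ν (V v ω)) x)⟫_ℂ‖ₑ ^ 2 ∂ν := ENNReal.tsum_comm
    _ ≤ _ := ENNReal.tsum_le_tsum hk

include hV in
/-- **The counting inequality.** -/
theorem core {S ι : Type} [Countable S] [Countable ι] {T : S → K →L[ℂ] K} {ω : K}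
    (hO : Orthonormal ℂ fun p : Λ × S => T p.2 (V p.1 ω)) (d : ι → K)
    {B : Lp K 2 ν →L[ℂ] Lp K 2 ν}
    (hB : ∀ A, MeasurableSet A → B * ind ν K A = ind ν K A * B)
    (hBT : ∀ s, B * (T s).compLpL 2 ν = (T s).compLpL 2 ν * B)
    {Y : Set (E ⧸ Λ)} (hY : MeasurableSet Y) {m : Measure E} [SFinite m] {c : ℝ≥0∞}
    (hm : ∀ x v, m {g | coc Λ g x = v ∧ g • x ∈ Y} ≤ c) :
    ∫⁻ g, ∫⁻ x, Y.indicator 1 (g • x) * ms T d (B (iro hν V g⁻¹ (Lp.const 2 ν ω)) x) ∂ν ∂m ≤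
      c * ∑' k, ‖adjoint B (Lp.const 2 ν (d k))‖ₑ ^ 2 := by
  haveI hcl : IsClosed (Λ : Set E) := Subgroup.isClosed_of_discrete
  have hsm : Measurable fun p : E × (E ⧸ Λ) => p.1 • p.2 := continuous_smul.measurable
  have hbm : ∀ v, StronglyMeasurable (⇑(B (Lp.const 2 ν (V v ω)))) := fun v =>
    Lp.stronglyMeasurable _
  have hA : ∀ v, MeasurableSet {p : E × (E ⧸ Λ) | coc Λ p.1 p.2 = v ∧ p.1 • p.2 ∈ Y} := fun v =>
    (coc_jmeas v).inter (hsm hY)
  have hf : ∀ v, Measurable fun p : E × (E ⧸ Λ) =>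
      {p : E × (E ⧸ Λ) | coc Λ p.1 p.2 = v ∧ p.1 • p.2 ∈ Y}.indicator
        (fun p => ms T d (B (Lp.const 2 ν (V v⁻¹ ω)) p.2)) p := fun v =>
    ((ms_meas T d (hbm v⁻¹)).comp measurable_snd).indicator (hA v)
  calc ∫⁻ g, ∫⁻ x, Y.indicator 1 (g • x) * ms T d (B (iro hν V g⁻¹ (Lp.const 2 ν ω)) x) ∂ν ∂m
      = ∫⁻ g, ∫⁻ x, ∑' v : Λ, {p : E × (E ⧸ Λ) | coc Λ p.1 p.2 = v ∧ p.1 • p.2 ∈ Y}.indicator
        (fun p => ms T d (B (Lp.const 2 ν (V v⁻¹ ω)) p.2)) (g, x) ∂ν ∂m := by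
        refine lintegral_congr fun g => lintegral_congr_ae ?_
        filter_upwards [b_iro hν hV hB g ω] with x hx
        rw [hx, tsum_eq_single (coc Λ g x)]
        · by_cases h : g • x ∈ Y
          · rw [indicator_of_mem h, indicator_of_mem (show (g, x) ∈ {p : E × (E ⧸ Λ) |
              coc Λ p.1 p.2 = coc Λ g x ∧ p.1 • p.2 ∈ Y} from ⟨rfl, h⟩), Pi.one_apply, one_mul]
          · rw [indicator_of_notMem h, indicator_of_notMem (fun hh => h hh.2), zero_mul]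
        · intro v hv
          exact indicator_of_notMem (fun hh => hv hh.1.symm) _
    _ = ∫⁻ x, ∫⁻ g, ∑' v : Λ, {p : E × (E ⧸ Λ) | coc Λ p.1 p.2 = v ∧ p.1 • p.2 ∈ Y}.indicator
        (fun p => ms T d (B (Lp.const 2 ν (V v⁻¹ ω)) p.2)) (g, x) ∂m ∂ν := by
        refine lintegral_lintegral_swap ?_
        exact (Measurable.ennreal_tsum fun v => hf v).aemeasurable
    _ = ∫⁻ x, ∑' v : Λ, m {g | coc Λ g x = v ∧ g • x ∈ Y} *
          ms T d (B (Lp.const 2 ν (V v⁻¹ ω)) x) ∂ν := by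
        refine lintegral_congr fun x => ?_
        have hfx : ∀ v, Measurable fun g : E =>
            {p : E × (E ⧸ Λ) | coc Λ p.1 p.2 = v ∧ p.1 • p.2 ∈ Y}.indicator
              (fun p => ms T d (B (Lp.const 2 ν (V v⁻¹ ω)) p.2)) (g, x) := fun v =>
          (hf v).comp measurable_prodMk_right
        rw [lintegral_tsum fun v => (hfx v).aemeasurable]
        refine tsum_congr fun v => ?_
        have hAx : MeasurableSet {g | coc Λ g x = v ∧ g • x ∈ Y} :=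
          measurable_prodMk_right (y := x) (hA v)
        have e1 : (fun g => {p : E × (E ⧸ Λ) | coc Λ p.1 p.2 = v ∧ p.1 • p.2 ∈ Y}.indicator
            (fun p => ms T d (B (Lp.const 2 ν (V v⁻¹ ω)) p.2)) (g, x)) =
            {g | coc Λ g x = v ∧ g • x ∈ Y}.indicator
              (fun _ => ms T d (B (Lp.const 2 ν (V v⁻¹ ω)) x)) := by
          funext g
          by_cases h : g ∈ {g | coc Λ g x = v ∧ g • x ∈ Y}
          · rw [indicator_of_mem h, indicator_of_mem (show (g, x) ∈ {p : E × (E ⧸ Λ) |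
              coc Λ p.1 p.2 = v ∧ p.1 • p.2 ∈ Y} from h)]
          · rw [indicator_of_notMem h, indicator_of_notMem (show (g, x) ∉ {p : E × (E ⧸ Λ) |
              coc Λ p.1 p.2 = v ∧ p.1 • p.2 ∈ Y} from h)]
        rw [e1, lintegral_indicator_const hAx, mul_comm]
    _ ≤ ∫⁻ x, ∑' v : Λ, c * ms T d (B (Lp.const 2 ν (V v⁻¹ ω)) x) ∂ν := by
        refine lintegral_mono fun x => ENNReal.tsum_le_tsum fun v => ?_
        gcongr
        exact hm x v
    _ = c * ∑' v : Λ, ∫⁻ x, ms T d (B (Lp.const 2 ν (V v⁻¹ ω)) x) ∂ν := by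
        rw [lintegral_tsum fun v => ((ms_meas T d (hbm v⁻¹)).const_mul c).aemeasurable,
          ← ENNReal.tsum_mul_left]
        refine tsum_congr fun v => ?_
        rw [lintegral_const_mul c (ms_meas T d (hbm v⁻¹))]
    _ = c * ∑' v : Λ, ∫⁻ x, ms T d (B (Lp.const 2 ν (V v ω)) x) ∂ν := by
        congr 1
        exact (Equiv.inv Λ).tsum_eq (fun v => ∫⁻ x, ms T d (B (Lp.const 2 ν (V v ω)) x) ∂ν)
    _ ≤ _ := by
        gcongr
        exact tot_le hO d hB hBT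

end core

end Vale.Agent.P092.H368
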