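import Vale.Agent.P092.SD.Defs
import Vale.Agent.P092.H953.AllV

/-!
P092 (helper368), team D, block [D-MS]: the multiplication operators `m S` of `SD/Defs` for the
concrete picture `K = L²(X; H)`.
-/

set_option linter.all false

open scoped InnerProductSpace ENNReal
open Filter Topology ContinuousLinearMap MeasureTheory

namespace Vale.Agent.P092.H368

open Vale.Agent.P092.H790 Vale.Agent.P092.H953
open Vale.Agent.P092.RC (Cm)

section m0

variable {H : Type} [NormedAddCommGroup H] [InnerProductSpace ℂ H] [CompleteSpace H]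
  {I Γ : Type} (b : HilbertBasis I ℂ H) (f : I → Γ)

/-- The coordinate projection: the closed span of the basis vectors with position in `S`. -/
noncomputable def m0 (S : Set Γ) : H →L[ℂ] H :=
  (Submodule.span ℂ {v | ∃ i, f i ∈ S ∧ v = b i}).topologicalClosure.starProjection

variable {b f}

theorem m0_mem {S : Set Γ} {i : I} (h : f i ∈ S) : m0 b f S (b i) = b i :=
  Submodule.starProjection_eq_self_iff.2
    (Submodule.le_topologicalClosure _ (Submodule.subset_span ⟨i, h, rfl⟩))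

theorem m0_notMem {S : Set Γ} {i : I} (h : f i ∉ S) : m0 b f S (b i) = 0 := by
  refine (Submodule.starProjection_apply_eq_zero_iff _).2 ?_
  rw [Submodule.orthogonal_closure]
  rw [Submodule.mem_orthogonal]
  intro u hu
  refine Submodule.span_induction (p := fun u _ => ⟪u, b i⟫_ℂ = 0) ?_ (inner_zero_left _) ?_ ?_ hu
  · rintro _ ⟨j, hj, rfl⟩
    have hij : j ≠ i := fun e => h (e ▸ hj)
    exact b.orthonormal.2 hij
  · intro x y _ _ hx hy
    rw [inner_add_left, hx, hy, add_zero]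
  · intro c x _ hx
    rw [inner_smul_left, hx, mul_zero]

theorem ext_basis {T T' : H →L[ℂ] H} (h : ∀ i, T (b i) = T' (b i)) : T = T' := by
  have hd : Dense (Submodule.span ℂ (Set.range b) : Set H) := by
    rw [Submodule.dense_iff_topologicalClosure_eq_top]
    exact b.dense_span
  refine ContinuousLinearMap.ext_on hd ?_
  rintro _ ⟨i, rfl⟩
  exact h i

theorem m0_adj (S : Set Γ) : adjoint (m0 b f S) = m0 b f S :=
  (isSelfAdjoint_starProjection _).adjoint_eq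

theorem m0_norm (S : Set Γ) : ‖m0 b f S‖ ≤ 1 := Submodule.starProjection_norm_le _

theorem m0_inf (S T : Set Γ) : m0 b f (S ∩ T) = m0 b f S * m0 b f T := by
  refine ext_basis (b := b) fun i => ?_
  change _ = m0 b f S (m0 b f T (b i))
  by_cases hT : f i ∈ T
  · rw [m0_mem hT]
    by_cases hS : f i ∈ S
    · rw [m0_mem hS, m0_mem (show f i ∈ S ∩ T from ⟨hS, hT⟩)]
    · rw [m0_notMem hS, m0_notMem (show f i ∉ S ∩ T from fun h => hS h.1)]
  · rw [m0_notMem hT, m0_notMem (show f i ∉ S ∩ T from fun h => hT h.2), map_zero]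

theorem m0_compl (S : Set Γ) : m0 b f Sᶜ = 1 - m0 b f S := by
  refine ext_basis (b := b) fun i => ?_
  rw [ContinuousLinearMap.sub_apply, ContinuousLinearMap.one_apply]
  by_cases hS : f i ∈ S
  · rw [m0_mem hS, m0_notMem (show f i ∉ Sᶜ from fun h => h hS), sub_self]
  · rw [m0_notMem hS, m0_mem (show f i ∈ Sᶜ from hS), sub_zero]

/-- an operator which moves basis vectors inside the positions commutes with `m0` -/
theorem m0_comm {R : H →L[ℂ] H} (hR : ∀ i, ∃ j, f j = f i ∧ R (b i) = b j) (S : Set Γ) :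
    R * m0 b f S = m0 b f S * R := by
  refine ext_basis (b := b) fun i => ?_
  change R (m0 b f S (b i)) = m0 b f S (R (b i))
  obtain ⟨j, hj, e⟩ := hR i
  by_cases hS : f i ∈ S
  · rw [m0_mem hS, e, m0_mem (by rw [hj]; exact hS)]
  · rw [m0_notMem hS, e, m0_notMem (by rw [hj]; exact hS), map_zero]

theorem m0_cov [Group Γ] {R R' : H →L[ℂ] H} (γ : Γ) (h1 : R * R' = 1)
    (hR : ∀ i, ∃ j, f j = γ⁻¹ * f i ∧ R' (b i) = b j) (S : Set Γ) :
    R * m0 b f S * R' = m0 b f ((fun x => γ * x) '' S) := by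
  refine ext_basis (b := b) fun i => ?_
  change R (m0 b f S (R' (b i))) = _
  obtain ⟨j, hj, e⟩ := hR i
  have e2 : R (b j) = b i := by
    rw [← e]
    exact congrArg (fun A : H →L[ℂ] H => A (b i)) h1
  rw [e]
  by_cases hS : f j ∈ S
  · rw [m0_mem hS, e2, m0_mem (show f i ∈ (fun x => γ * x) '' S from ⟨f j, hS, by
      change γ * f j = f i
      rw [hj]; simp⟩)]
  · rw [m0_notMem hS, map_zero, m0_notMem]
    rintro ⟨x, hx, hxe⟩
    refine hS ?_
    rw [hj, ← hxe]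
    simpa using hx

end m0

section ms

variable {X : Type} [MeasurableSpace X] {ν : Measure X} [IsProbabilityMeasure ν]
  {H : Type} [NormedAddCommGroup H] [InnerProductSpace ℂ H] [CompleteSpace H]
  {Γ Γ₂ : Type} [Group Γ] [Group Γ₂]

/-- `m S` on `L²(X; H)` -/
noncomputable def mm (ν : Measure X) {I : Type} (b : HilbertBasis I ℂ H) (f : I → Γ) (S : Set Γ) :
    Lp H 2 ν →L[ℂ] Lp H 2 ν := (m0 b f S).compLpL 2 ν

theorem dense_basis {I : Type} (b : HilbertBasis I ℂ H) :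
    Dense (Submodule.span ℂ {ξ : Lp H 2 ν | ∃ s ∈ Set.range b, ∃ A, MeasurableSet A ∧
      ξ = ind ν H A (Lp.const 2 ν s)} : Set (Lp H 2 ν)) := by
  refine dense_ind ?_
  rw [Submodule.dense_iff_topologicalClosure_eq_top]
  exact b.dense_span

theorem mm_ind {I : Type} (b : HilbertBasis I ℂ H) (f : I → Γ) (S : Set Γ) {A : Set X}
    (hA : MeasurableSet A) (v : H) :
    mm ν b f S (ind ν H A (Lp.const 2 ν v)) = ind ν H A (Lp.const 2 ν (m0 b f S v)) := by
  have e1 := congrArg (fun T : Lp H 2 ν →L[ℂ] Lp H 2 ν => T (Lp.const 2 ν v))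
    (ind_comp (μ := ν) hA (m0 b f S))
  change (m0 b f S).compLpL 2 ν (ind ν H A _) = ind ν H A ((m0 b f S).compLpL 2 ν _) at e1
  rw [mm, e1, comp_const]

theorem mm_norm_le {I : Type} (b : HilbertBasis I ℂ H) (f : I → Γ) (S : Set Γ) (ξ : Lp H 2 ν) :
    ‖mm ν b f S ξ‖ ≤ ‖ξ‖ := by
  refine (Lp.norm_le_mul_norm_of_ae_le_mul (c := 1) ?_).trans_eq (one_mul _)
  filter_upwards [fld_comp (μ := ν) (m0 b f S) ξ] with x hx
  rw [mm, hx]
  exact ContinuousLinearMap.le_of_opNorm_le _ (m0_norm S) _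

theorem mm_fin {I : Type} (b : HilbertBasis I ℂ H) (f : I → Γ) (ξ : Lp H 2 ν) (ε : ℝ)
    (hε : 0 < ε) : ∃ F : Finset Γ, ‖mm ν b f ((F : Set Γ))ᶜ ξ‖ ≤ ε := by
  classical
  have key : ∀ η ∈ Submodule.span ℂ {ξ : Lp H 2 ν | ∃ s ∈ Set.range b, ∃ A, MeasurableSet A ∧
      ξ = ind ν H A (Lp.const 2 ν s)}, ∃ F : Finset Γ, ∀ F' : Finset Γ, F ⊆ F' →
        mm ν b f ((F' : Set Γ))ᶜ η = 0 := by
    intro η hη
    refine Submodule.span_induction (p := fun η _ => ∃ F : Finset Γ, ∀ F' : Finset Γ, F ⊆ F' →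
        mm ν b f ((F' : Set Γ))ᶜ η = 0) ?_ ?_ ?_ ?_ hη
    · rintro _ ⟨_, ⟨i, rfl⟩, A, hA, rfl⟩
      refine ⟨{f i}, fun F' hF' => ?_⟩
      rw [mm_ind b f _ hA, m0_notMem]
      · rw [map_zero, map_zero]
      · intro h
        exact h (hF' (Finset.mem_singleton_self _))
    · exact ⟨∅, fun F' _ => map_zero _⟩
    · rintro x y _ _ ⟨F, hF⟩ ⟨G, hG⟩
      refine ⟨F ∪ G, fun F' hF' => ?_⟩
      rw [map_add, hF F' (Finset.union_subset_left hF'), hG F' (Finset.union_subset_right hF'),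
        add_zero]
    · rintro c x _ ⟨F, hF⟩
      refine ⟨F, fun F' hF' => ?_⟩
      rw [map_smul, hF F' hF', smul_zero]
  obtain ⟨η, hη, hd⟩ := Metric.mem_closure_iff.1 (dense_basis (ν := ν) b ξ) ε hε
  obtain ⟨F, hF⟩ := key η hη
  refine ⟨F, ?_⟩
  have e : ξ = (ξ - η) + η := by abel
  rw [e, map_add, hF F subset_rfl, add_zero]
  refine (mm_norm_le b f _ _).trans ?_
  rw [← dist_eq_norm]
  exact hd.le

/-- **[D-MS]** The structure `Ms` for the concrete picture. `b (γ, s) = R₁ γ (R₂ s ω)` is a Hilbert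
basis of `H`. -/
theorem ms_inst (b : HilbertBasis (Γ × Γ₂) ℂ H) {R₁ : Γ →* (H →L[ℂ] H)} {R₂ : Γ₂ →* (H →L[ℂ] H)}
    {ω : H} (hb : ∀ γ s, b (γ, s) = R₁ γ (R₂ s ω)) (hcomm : ∀ γ s, R₁ γ * R₂ s = R₂ s * R₁ γ)
    {lam : Γ →* (Lp H 2 ν →L[ℂ] Lp H 2 ν)} (hlam : ∀ γ, lam γ = (R₁ γ).compLpL 2 ν)
    {W : Set (Lp H 2 ν →L[ℂ] Lp H 2 ν)} (h1 : ∀ A, MeasurableSet A → ind ν H A ∈ W)
    (h2 : ∀ s, (R₂ s).compLpL 2 ν ∈ W)
    (hW : ∀ w ∈ W, (∃ A, MeasurableSet A ∧ w = ind ν H A) ∨ ∃ s, w = (R₂ s).compLpL 2 ν) :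
    SD.Ms lam W (Lp.const 2 ν ω : Lp H 2 ν) (mm ν b Prod.fst) := by
  have hR2 : ∀ s, ∀ i : Γ × Γ₂, ∃ j : Γ × Γ₂, j.1 = i.1 ∧ R₂ s (b i) = b j := by
    rintro s ⟨γ, t⟩
    refine ⟨(γ, s * t), rfl, ?_⟩
    rw [hb, hb, map_mul]
    have := congrArg (fun A : H →L[ℂ] H => A (R₂ t ω)) (hcomm γ s)
    exact this.symm
  have hR1 : ∀ γ, ∀ i : Γ × Γ₂, ∃ j : Γ × Γ₂, j.1 = γ⁻¹ * i.1 ∧ R₁ γ⁻¹ (b i) = b j := by
    rintro γ ⟨x, t⟩
    refine ⟨(γ⁻¹ * x, t), rfl, ?_⟩
    rw [hb, hb, map_mul]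
    rfl
  have hone : R₁ 1 = 1 := map_one _
  have hω : b (1, 1) = ω := by rw [hb, map_one, map_one]; rfl
  constructor
  · intro S
    rw [mm, comp_adjoint, m0_adj]
  · intro S T
    rw [mm, m0_inf, comp_mul]; rfl
  · intro S
    rw [mm, m0_compl, H790.comp_sub, comp_one]; rfl
  · intro S w hw
    rcases hW w hw with ⟨A, hA, rfl⟩ | ⟨s, rfl⟩
    · exact ind_comp hA _
    · rw [mm, ← comp_mul, ← comp_mul, m0_comm (hR2 s)]
  · intro γ S
    rw [hlam, hlam, mm, ← comp_mul, ← comp_mul, m0_cov γ _ (hR1 γ)]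
    · rfl
    · rw [← map_mul, mul_inv_cancel, map_one]
  · rw [mm, comp_const, ← hω, m0_mem (show ((1 : Γ), (1 : Γ₂)).1 ∈ ({1} : Set Γ) from rfl)]
  · intro ξ ε hε
    exact mm_fin b _ ξ ε hε
  · intro ξ hξ
    have key : ∀ η ∈ Submodule.span ℂ {ξ : Lp H 2 ν | ∃ s ∈ Set.range b, ∃ A, MeasurableSet A ∧
        ξ = ind ν H A (Lp.const 2 ν s)}, mm ν b Prod.fst {1} η ∈
          Submodule.span ℂ {η | ∃ w ∈ StarAlgebra.adjoin ℂ W, η = w (Lp.const 2 ν ω)} := by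
      intro η hη
      refine Submodule.span_induction (p := fun η _ => mm ν b Prod.fst {1} η ∈
          Submodule.span ℂ {η | ∃ w ∈ StarAlgebra.adjoin ℂ W, η = w (Lp.const 2 ν ω)})
          ?_ ?_ ?_ ?_ hη
      · rintro _ ⟨_, ⟨⟨γ, s⟩, rfl⟩, A, hA, rfl⟩
        rw [mm_ind b _ _ hA]
        by_cases hγ : γ = 1
        · subst hγ
          rw [m0_mem (show ((1 : Γ), s).1 ∈ ({1} : Set Γ) from rfl)]
          refine Submodule.subset_span ⟨ind ν H A * (R₂ s).compLpL 2 ν,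
            mul_mem (StarAlgebra.subset_adjoin ℂ W (h1 A hA))
              (StarAlgebra.subset_adjoin ℂ W (h2 s)), ?_⟩
          rw [hb, map_one]
          change ind ν H A (Lp.const 2 ν (R₂ s ω)) = ind ν H A ((R₂ s).compLpL 2 ν _)
          rw [comp_const]
        · rw [m0_notMem (show (γ, s).1 ∉ ({1} : Set Γ) from hγ), map_zero, map_zero]
          exact Submodule.zero_mem _
      · rw [map_zero]
        exact Submodule.zero_mem _
      · intro x y _ _ hx hy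
        rw [map_add]
        exact Submodule.add_mem _ hx hy
      · intro c x _ hx
        rw [map_smul]
        exact Submodule.smul_mem _ c hx
    rw [Metric.mem_closure_iff]
    intro ε hε
    obtain ⟨η, hη, hd⟩ := Metric.mem_closure_iff.1 (dense_basis (ν := ν) b ξ) ε hε
    refine ⟨_, key η hη, ?_⟩
    have e3 : ξ - mm ν b Prod.fst {1} η = mm ν b Prod.fst {1} (ξ - η) := by rw [map_sub, hξ]
    rw [dist_eq_norm, e3]
    refine (mm_norm_le b _ _ _).trans_lt ?_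
    rw [← dist_eq_norm]
    exact hd

/-- the basis, from a frame -/
theorem exists_basis {R₁ : Γ → (H →L[ℂ] H)} {R₂ : Γ₂ → (H →L[ℂ] H)} {ω : H}
    (hO : Orthonormal ℂ fun p : Γ × Γ₂ => R₁ p.1 (R₂ p.2 ω))
    (ht : ∀ v : H, (∀ γ s, ⟪R₁ γ (R₂ s ω), v⟫_ℂ = 0) → v = 0) :
    ∃ b : HilbertBasis (Γ × Γ₂) ℂ H, ∀ γ s, b (γ, s) = R₁ γ (R₂ s ω) := by
  refine ⟨HilbertBasis.mkOfOrthogonalEqBot hO ?_, fun γ s => ?_⟩
  · rw [Submodule.eq_bot_iff]
    intro v hv
    rw [Submodule.mem_orthogonal] at hv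
    exact ht v fun γ s => hv _ (Submodule.subset_span ⟨(γ, s), rfl⟩)
  · exact congrFun (HilbertBasis.coe_mkOfOrthogonalEqBot hO _) (γ, s)

end ms

end Vale.Agent.P092.H368
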