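import Vale.Agent.P092.H368.Cp1

/-!
P092 (helper368), team D, block [D-CNT] (3): carrying mass estimates from `π(b)* Ω` to `π(b g)* η`.
-/

set_option linter.all false

open scoped InnerProductSpace ENNReal
open Set Filter Topology MeasureTheory ContinuousLinearMap

namespace Vale.Agent.P092.H368

open Vale.Agent.P092.H790 Vale.Agent.P092.H85 Vale.Agent.P092.H103

section carry

variable {E : Type} [Group E] [TopologicalSpace E] [IsTopologicalGroup E] [LocallyCompactSpace E]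
  [SecondCountableTopology E] [T2Space E] [MeasurableSpace E] [BorelSpace E]
  {Λ : Subgroup E} [DiscreteTopology Λ] [MeasurableSpace (E ⧸ Λ)] [BorelSpace (E ⧸ Λ)]
  {ν : Measure (E ⧸ Λ)} [IsProbabilityMeasure ν] (hν : ∀ g : E, ν.map (fun x => g • x) = ν)
  {K : Type} [NormedAddCommGroup K] [InnerProductSpace ℂ K] [CompleteSpace K]
  {V : Λ →* (K →L[ℂ] K)} (hV : ∀ v, adjoint (V v) = V v⁻¹) [Countable Λ]
  {I : Type} {ρ : I → (K →L[ℂ] K)} {ω : K}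

/-- `η` is a *carried* vector: the part of `π(h)* η` seen by `Q` is small, as soon as the part of
`π(h)* Ω` seen by `Q'` is small, `Q'` being the outside of a set and `Q` the outside of a finite
enlargement of this set. -/
def Car (V : Λ →* (K →L[ℂ] K)) (ρ : I → (K →L[ℂ] K)) (ω : K) (η : Lp K 2 ν) : Prop :=
  ∀ δ : ℝ, 0 < δ → ∃ F : Finset I, ∃ ε : ℝ, 0 < ε ∧ ∀ Q Q' : K →L[ℂ] K, ‖Q‖ ≤ 1 →
    (∀ i ∈ F, Q * ρ i = Q * ρ i * Q') → ∀ h : E,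
      ‖Q'.compLpL 2 ν (iro hν V h⁻¹ (Lp.const 2 ν ω))‖ ≤ ε →
        ‖Q.compLpL 2 ν (iro hν V h⁻¹ η)‖ ≤ δ

theorem comp_norm_le (Q : K →L[ℂ] K) (ξ : Lp K 2 ν) : ‖Q.compLpL 2 ν ξ‖ ≤ ‖Q‖ * ‖ξ‖ := by
  refine Lp.norm_le_mul_norm_of_ae_le_mul ?_
  filter_upwards [fld_comp (μ := ν) Q ξ] with x hx
  rw [hx]
  exact Q.le_opNorm _

theorem comp_const (A : K →L[ℂ] K) (w : K) :
    A.compLpL 2 ν (Lp.const 2 ν w) = (Lp.const 2 ν (A w) : Lp K 2 ν) := by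
  refine Lp.ext ?_
  have c1 : ⇑(Lp.const 2 ν w : Lp K 2 ν) =ᵐ[ν] fun _ => w := Lp.coeFn_const ..
  have c2 : ⇑(Lp.const 2 ν (A w) : Lp K 2 ν) =ᵐ[ν] fun _ => A w := Lp.coeFn_const ..
  filter_upwards [fld_comp (μ := ν) A (Lp.const 2 ν w), c1, c2] with x h1 h2 h3
  rw [h1, h2, h3]

include hV in
theorem iro_norm (h : E) (ξ : Lp K 2 ν) : ‖iro hν V h ξ‖ ≤ ‖ξ‖ := by
  refine (ContinuousLinearMap.le_of_opNorm_le _ ?_ ξ).trans_eq (one_mul _)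
  exact norm_ri_le (cdat ν hν) (R := fun v => V v) (pi_norm_le hV) h

include hV in
theorem iro_comp (h : E) {A : K →L[ℂ] K} (hA : ∀ v, A * V v = V v * A) (ξ : Lp K 2 ν) :
    iro hν V h (A.compLpL 2 ν ξ) = A.compLpL 2 ν (iro hν V h ξ) :=
  congrArg (fun T : Lp K 2 ν →L[ℂ] Lp K 2 ν => T ξ)
    (ri_comp (cdat ν hν) (R := fun v => V v) (pi_norm_le hV) h hA)

include hV in
theorem iro_ind (h : E) {S : Set (E ⧸ Λ)} (hS : MeasurableSet S) (ξ : Lp K 2 ν) :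
    iro hν V h (ind ν K S ξ) =
      ind ν K ((fun x : E ⧸ Λ => h⁻¹ • x) ⁻¹' S) (iro hν V h ξ) :=
  congrArg (fun T : Lp K 2 ν →L[ℂ] Lp K 2 ν => T ξ)
    (ri_ind (cdat ν hν) (R := fun v => V v) (pi_norm_le hV) h hS)

include hV in
theorem Car.base (hρ : ∀ i v, ρ i * V v = V v * ρ i) (i : I) {A : Set (E ⧸ Λ)}
    (hA : MeasurableSet A) : Car hν V ρ ω (ind ν K A (Lp.const 2 ν (ρ i ω))) := by
  intro δ hδ
  refine ⟨{i}, δ / (‖ρ i‖ + 1), by positivity, fun Q Q' hQ hQQ h hh => ?_⟩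
  have h1 : iro hν V h⁻¹ (ind ν K A (Lp.const 2 ν (ρ i ω))) =
      ind ν K ((fun x : E ⧸ Λ => h⁻¹⁻¹ • x) ⁻¹' A)
        ((ρ i).compLpL 2 ν (iro hν V h⁻¹ (Lp.const 2 ν ω))) := by
    rw [iro_ind hν hV h⁻¹ hA, ← comp_const (ρ i) ω, iro_comp hν hV h⁻¹ (hρ i)]
  have hS : MeasurableSet ((fun x : E ⧸ Λ => h⁻¹⁻¹ • x) ⁻¹' A) := (smul_meas Λ h⁻¹⁻¹) hA
  have h2 : Q.compLpL 2 ν (iro hν V h⁻¹ (ind ν K A (Lp.const 2 ν (ρ i ω)))) =
      ind ν K ((fun x : E ⧸ Λ => h⁻¹⁻¹ • x) ⁻¹' A)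
        ((Q * ρ i).compLpL 2 ν (Q'.compLpL 2 ν (iro hν V h⁻¹ (Lp.const 2 ν ω)))) := by
    rw [h1]
    have e1 := congrArg (fun T : Lp K 2 ν →L[ℂ] Lp K 2 ν =>
      T ((ρ i).compLpL 2 ν (iro hν V h⁻¹ (Lp.const 2 ν ω)))) (ind_comp (μ := ν) hS Q)
    change Q.compLpL 2 ν (ind ν K _ _) = ind ν K _ (Q.compLpL 2 ν _) at e1
    rw [e1]
    congr 1
    have e2 : (Q * ρ i).compLpL 2 ν = Q.compLpL 2 ν * (ρ i).compLpL 2 ν := comp_mul _ _
    have e3 : (Q * ρ i * Q').compLpL 2 ν = (Q * ρ i).compLpL 2 ν * Q'.compLpL 2 ν := comp_mul _ _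
    have e4 := hQQ i (Finset.mem_singleton_self i)
    calc Q.compLpL 2 ν ((ρ i).compLpL 2 ν (iro hν V h⁻¹ (Lp.const 2 ν ω)))
        = ((Q * ρ i).compLpL 2 ν) (iro hν V h⁻¹ (Lp.const 2 ν ω)) := by rw [e2]; rfl
      _ = ((Q * ρ i * Q').compLpL 2 ν) (iro hν V h⁻¹ (Lp.const 2 ν ω)) := by rw [← e4]
      _ = _ := by rw [e3]; rfl
  rw [h2]
  have h3 : ∀ ξ : Lp K 2 ν, ‖ind ν K ((fun x : E ⧸ Λ => h⁻¹⁻¹ • x) ⁻¹' A) ξ‖ ≤ ‖ξ‖ := fun ξ =>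
    (ContinuousLinearMap.le_of_opNorm_le _ (norm_ind_le hS) ξ).trans_eq (one_mul _)
  refine (h3 _).trans ((comp_norm_le _ _).trans ?_)
  have h4 : ‖Q * ρ i‖ ≤ ‖ρ i‖ := (norm_mul_le _ _).trans (by nlinarith [norm_nonneg (ρ i)])
  calc ‖Q * ρ i‖ * ‖Q'.compLpL 2 ν (iro hν V h⁻¹ (Lp.const 2 ν ω))‖
      ≤ ‖ρ i‖ * (δ / (‖ρ i‖ + 1)) := by gcongr
    _ ≤ (‖ρ i‖ + 1) * (δ / (‖ρ i‖ + 1)) := by gcongr; linarith
    _ = δ := by field_simp

theorem Car.add {η η' : Lp K 2 ν} (h1 : Car hν V ρ ω η) (h2 : Car hν V ρ ω η') :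
    Car hν V ρ ω (η + η') := by
  classical
  intro δ hδ
  obtain ⟨F, ε, hε, h⟩ := h1 (δ / 2) (by positivity)
  obtain ⟨F', ε', hε', h'⟩ := h2 (δ / 2) (by positivity)
  refine ⟨F ∪ F', min ε ε', lt_min hε hε', fun Q Q' hQ hQQ g hg => ?_⟩
  have a1 := h Q Q' hQ (fun i hi => hQQ i (Finset.mem_union_left _ hi)) g (hg.trans (min_le_left _ _))
  have a2 := h' Q Q' hQ (fun i hi => hQQ i (Finset.mem_union_right _ hi)) g
    (hg.trans (min_le_right _ _))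
  rw [map_add, map_add]
  exact (norm_add_le _ _).trans (by linarith)

theorem Car.smul {η : Lp K 2 ν} (c : ℂ) (h1 : Car hν V ρ ω η) : Car hν V ρ ω (c • η) := by
  intro δ hδ
  obtain ⟨F, ε, hε, h⟩ := h1 (δ / (‖c‖ + 1)) (by positivity)
  refine ⟨F, ε, hε, fun Q Q' hQ hQQ g hg => ?_⟩
  have a1 := h Q Q' hQ hQQ g hg
  rw [map_smul, map_smul, norm_smul]
  calc ‖c‖ * ‖Q.compLpL 2 ν (iro hν V g⁻¹ η)‖ ≤ (‖c‖ + 1) * (δ / (‖c‖ + 1)) := by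
        gcongr; linarith
    _ = δ := by field_simp

theorem Car.zero : Car hν V ρ ω (0 : Lp K 2 ν) := by
  intro δ hδ
  refine ⟨∅, 1, one_pos, fun Q Q' hQ hQQ g hg => ?_⟩
  rw [map_zero, map_zero, norm_zero]
  exact hδ.le

include hV in
theorem Car.lim {η : Lp K 2 ν} (h : ∀ r > 0, ∃ η' : Lp K 2 ν, Car hν V ρ ω η' ∧ ‖η - η'‖ ≤ r) :
    Car hν V ρ ω η := by
  intro δ hδ
  obtain ⟨η', hc, hn⟩ := h (δ / 2) (by positivity)
  obtain ⟨F, ε, hε, h⟩ := hc (δ / 2) (by positivity)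
  refine ⟨F, ε, hε, fun Q Q' hQ hQQ g hg => ?_⟩
  have a1 := h Q Q' hQ hQQ g hg
  have e1 : η = (η - η') + η' := by abel
  rw [e1, map_add, map_add]
  refine (norm_add_le _ _).trans ?_
  have a2 : ‖Q.compLpL 2 ν (iro hν V g⁻¹ (η - η'))‖ ≤ δ / 2 := by
    refine (comp_norm_le _ _).trans ?_
    calc ‖Q‖ * ‖iro hν V g⁻¹ (η - η')‖ ≤ 1 * (δ / 2) := by
          gcongr
          exact (iro_norm hν hV _ _).trans hn
      _ = δ / 2 := one_mul _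
  linarith

/-- The vectors `1_A ρ_i ω` are total. -/
theorem total [Countable I] (ht : ∀ w : K, (∀ i, ⟪ρ i ω, w⟫_ℂ = 0) → w = 0) :
    (Submodule.span ℂ {η : Lp K 2 ν | ∃ (A : Set (E ⧸ Λ)) (i : I), MeasurableSet A ∧
      η = ind ν K A (Lp.const 2 ν (ρ i ω))}).topologicalClosure = ⊤ := by
  rw [Submodule.topologicalClosure_eq_top_iff, Submodule.eq_bot_iff]
  intro η hη
  rw [Submodule.mem_orthogonal] at hη
  have h1 : ∀ i, ∀ᵐ x ∂ν, ⟪ρ i ω, η x⟫_ℂ = 0 := by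
    intro i
    have hint : Integrable (fun x => ⟪(Lp.const 2 ν (ρ i ω) : Lp K 2 ν) x, η x⟫_ℂ) ν :=
      L2.integrable_inner _ _
    have c1 : ⇑(Lp.const 2 ν (ρ i ω) : Lp K 2 ν) =ᵐ[ν] fun _ => ρ i ω := Lp.coeFn_const ..
    have h2 : (fun x => ⟪(Lp.const 2 ν (ρ i ω) : Lp K 2 ν) x, η x⟫_ℂ) =ᵐ[ν] 0 := by
      refine Integrable.ae_eq_zero_of_forall_setIntegral_eq_zero hint fun A hA _ => ?_
      have h3 := hη (ind ν K A (Lp.const 2 ν (ρ i ω))) (Submodule.subset_span ⟨A, i, hA, rfl⟩)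
      rw [← h3, L2.inner_def, ← integral_indicator hA]
      refine integral_congr_ae ?_
      filter_upwards [ind_ae hA (Lp.const 2 ν (ρ i ω) : Lp K 2 ν)] with x hx
      rw [hx]
      by_cases h : x ∈ A
      · rw [indicator_of_mem h, indicator_of_mem h]
      · rw [indicator_of_notMem h, indicator_of_notMem h, inner_zero_left]
    filter_upwards [h2, c1] with x a1 a2
    rw [a2] at a1
    exact a1
  refine Lp.ext ?_
  filter_upwards [ae_all_iff.2 h1, Lp.coeFn_zero K 2 ν] with x a1 a2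
  rw [a2]
  exact ht _ a1

include hV in
/-- **Every vector is carried.** -/
theorem carry [Countable I] (hρ : ∀ i v, ρ i * V v = V v * ρ i)
    (ht : ∀ w : K, (∀ i, ⟪ρ i ω, w⟫_ℂ = 0) → w = 0) (η : Lp K 2 ν) : Car hν V ρ ω η := by
  refine Car.lim hν hV fun r hr => ?_
  have h1 : η ∈ (Submodule.span ℂ {η : Lp K 2 ν | ∃ (A : Set (E ⧸ Λ)) (i : I), MeasurableSet A ∧
      η = ind ν K A (Lp.const 2 ν (ρ i ω))}).topologicalClosure := by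
    rw [total ht]; trivial
  obtain ⟨η', hη', hd⟩ := Metric.mem_closure_iff.1 h1 r hr
  refine ⟨η', ?_, by rw [← dist_eq_norm]; exact hd.le⟩
  refine Submodule.span_induction (p := fun η _ => Car hν V ρ ω η) ?_ (Car.zero hν) ?_ ?_ hη'
  · rintro _ ⟨A, i, hA, rfl⟩
    exact Car.base hν hV hρ i hA
  · intro a b _ _ ha hb
    exact ha.add hν hb
  · intro c a _ ha
    exact ha.smul hν c

include hV in
theorem iro_const2 (b g : E) (ω : K) :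
    ⇑(iro hν V (b * g)⁻¹ (Lp.const 2 ν ω)) =ᵐ[ν]
      fun x => V (coc Λ g x)⁻¹ (V (coc Λ b (g • x))⁻¹ ω) := by
  filter_upwards [iro_const hν hV (b * g) ω] with x hx
  rw [hx, coc_mul, mul_inv_rev, map_mul]
  rfl

include hV in
/-- **One step to the right.**  The mass of `π(b g)* Ω`, `g` in a compact set, from the mass of
`π(b)* Ω`: each `V v` is approximated on all `V p ω` by an operator of the class `Z`. -/
theorem carry_right {O : Set E} (hO : IsCompact O) {Z : Set (K →L[ℂ] K)} {ω : K}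
    (hz : ∀ v : Λ, ∀ ε : ℝ, 0 < ε → ∃ z ∈ Z, ∀ p : Λ, ‖(V v - z) (V p ω)‖ ≤ ε)
    {ε : ℝ} (hε : 0 < ε) :
    ∃ F : Finset (K →L[ℂ] K), (∀ z ∈ F, z ∈ Z) ∧ ∃ ε' : ℝ, 0 < ε' ∧ ∀ Q Q' : K →L[ℂ] K, ‖Q‖ ≤ 1 →
      (∀ z ∈ F, Q * z = Q * z * Q') → ∀ b : E,
        ‖Q'.compLpL 2 ν (iro hν V b⁻¹ (Lp.const 2 ν ω))‖ ≤ ε' → ∀ g ∈ O,
          ‖Q.compLpL 2 ν (iro hν V (b * g)⁻¹ (Lp.const 2 ν ω))‖ ≤ ε := by
  classical
  have hVn : ∀ v : Λ, ∀ y : K, ‖V v y‖ = ‖y‖ := by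
    intro v y
    have h1 : ∀ v : Λ, ∀ y : K, ‖V v y‖ ≤ ‖y‖ := fun v y =>
      (ContinuousLinearMap.le_of_opNorm_le _ (pi_norm_le hV v) y).trans_eq (one_mul _)
    refine le_antisymm (h1 v y) ?_
    have e : V v⁻¹ (V v y) = y := by
      have : (V v⁻¹ * V v) y = y := by rw [← map_mul, inv_mul_cancel, map_one]; rfl
      exact this
    calc ‖y‖ = ‖V v⁻¹ (V v y)‖ := by rw [e]
      _ ≤ ‖V v y‖ := h1 _ _
  -- constants
  set ε₁ : ℝ := ε ^ 2 / (4 * (‖ω‖ ^ 2 + 1)) with hε₁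
  have hε₁p : 0 < ε₁ := by positivity
  obtain ⟨T, hT⟩ := coc_tight ν hν hO hε₁p
  have hε₂p : 0 < ε / 4 := by positivity
  choose z hzZ hzε using fun v : Λ => hz v (ε / 4) hε₂p
  set F : Finset (K →L[ℂ] K) := T.image fun v => z v⁻¹ with hF
  obtain ⟨C, hC0, hC⟩ : ∃ C : ℝ, 0 < C ∧ ∀ v ∈ T, ‖z v⁻¹‖ ≤ C := by
    refine ⟨1 + ∑ v ∈ T, ‖z v⁻¹‖, by positivity, fun v hv => ?_⟩
    have h0 : ‖z v⁻¹‖ ≤ ∑ v ∈ T, ‖z v⁻¹‖ :=
      Finset.single_le_sum (f := fun v => ‖z v⁻¹‖) (fun v _ => norm_nonneg (z v⁻¹)) hv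
    linarith
  refine ⟨F, ?_, ε / (2 * C), by positivity, ?_⟩
  · intro w hw
    obtain ⟨v, _, rfl⟩ := Finset.mem_image.1 hw
    exact hzZ _
  intro Q Q' hQ hQQ b hb g hg
  set ζ : Lp K 2 ν := Q'.compLpL 2 ν (iro hν V b⁻¹ (Lp.const 2 ν ω)) with hζ
  set ξ : Lp K 2 ν := Q.compLpL 2 ν (iro hν V (b * g)⁻¹ (Lp.const 2 ν ω)) with hξ
  -- pointwise bound
  have hmp : MeasurePreserving (fun x : E ⧸ Λ => g • x) ν ν := ⟨smul_meas Λ g, hν g⟩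
  have hpt : ∀ᵐ x ∂ν, ‖ξ x‖ₑ ^ 2 ≤ ({x | coc Λ g x ∉ T}.indicator
      (fun _ => ENNReal.ofReal (‖ω‖ ^ 2)) x + ENNReal.ofReal (2 * (ε / 4) ^ 2)) +
        ENNReal.ofReal (2 * C ^ 2) * ‖ζ (g • x)‖ₑ ^ 2 := by
    filter_upwards [fld_comp (μ := ν) Q (iro hν V (b * g)⁻¹ (Lp.const 2 ν ω)),
      iro_const2 hν hV b g ω, ae_comp hmp (fld_comp (μ := ν) Q' (iro hν V b⁻¹ (Lp.const 2 ν ω))),
      ae_comp hmp (iro_const hν hV b ω)] with x h1 h2 h3 h4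
    have hξx : ξ x = Q (V (coc Λ g x)⁻¹ (V (coc Λ b (g • x))⁻¹ ω)) := by rw [hξ, h1, h2]
    have hζx : ζ (g • x) = Q' (V (coc Λ b (g • x))⁻¹ ω) := by rw [hζ, h3, h4]
    rw [esq, esq]
    have hQn : ∀ y, ‖Q y‖ ≤ ‖y‖ := fun y =>
      (ContinuousLinearMap.le_of_opNorm_le _ hQ y).trans_eq (one_mul _)
    by_cases hx : coc Λ g x ∈ T
    · set v := (coc Λ g x)⁻¹ with hv
      set y := V (coc Λ b (g • x))⁻¹ ω with hy
      have hvF : z v ∈ F := Finset.mem_image.2 ⟨coc Λ g x, hx, rfl⟩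
      have hvC : ‖z v‖ ≤ C := hC _ hx
      have e1 : Q (V v y) = Q ((V v - z v) y) + Q (z v (Q' y)) := by
        have e2 : Q (z v y) = Q (z v (Q' y)) := by
          have := congrArg (fun A : K →L[ℂ] K => A y) (hQQ _ hvF)
          exact this
        rw [← e2, ← map_add]
        congr 1
        simp [ContinuousLinearMap.sub_apply]
      have b1 : ‖Q (V v y)‖ ≤ ε / 4 + C * ‖Q' y‖ := by
        rw [e1]
        refine (norm_add_le _ _).trans (add_le_add ((hQn _).trans (hzε v _)) ?_)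
        refine (hQn _).trans ((ContinuousLinearMap.le_opNorm _ _).trans ?_)
        gcongr
      have b2 : ‖ξ x‖ ^ 2 ≤ 2 * (ε / 4) ^ 2 + 2 * C ^ 2 * ‖ζ (g • x)‖ ^ 2 := by
        rw [hξx, hζx]
        have : ‖Q (V v y)‖ ^ 2 ≤ (ε / 4 + C * ‖Q' y‖) ^ 2 := by gcongr
        nlinarith [sq_nonneg (ε / 4 - C * ‖Q' y‖)]
      rw [indicator_of_notMem (show x ∉ {x | coc Λ g x ∉ T} from fun h => h hx), zero_add, ← ENNReal.ofReal_mul (by positivity),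
        ← ENNReal.ofReal_add (by positivity) (by positivity)]
      exact ENNReal.ofReal_le_ofReal b2
    · rw [indicator_of_mem (show x ∈ {x | coc Λ g x ∉ T} from hx)]
      refine le_trans ?_ (le_trans le_self_add le_self_add)
      refine ENNReal.ofReal_le_ofReal ?_
      rw [hξx]
      have : ‖Q (V (coc Λ g x)⁻¹ (V (coc Λ b (g • x))⁻¹ ω))‖ ≤ ‖ω‖ :=
        (hQn _).trans (by rw [hVn, hVn])
      gcongr
  -- integrate
  have hTm : MeasurableSet {x | coc Λ g x ∉ T} := by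
    have : {x | coc Λ g x ∉ T} = (⋃ v ∈ T, {x | coc Λ g x = v})ᶜ := by
      ext x; simp
    rw [this]
    exact (Finset.measurableSet_biUnion T fun v _ => coc_meas Λ g v).compl
  have hI : ‖ξ‖ₑ ^ 2 ≤ ENNReal.ofReal (‖ω‖ ^ 2 * ε₁) + ENNReal.ofReal (2 * (ε / 4) ^ 2) +
      ENNReal.ofReal (2 * C ^ 2) * ‖ζ‖ₑ ^ 2 := by
    rw [← lint_sq ξ, ← lint_sq ζ]
    calc ∫⁻ x, ‖ξ x‖ₑ ^ 2 ∂ν
        ≤ ∫⁻ x, (({x | coc Λ g x ∉ T}.indicator
          (fun _ => ENNReal.ofReal (‖ω‖ ^ 2)) x + ENNReal.ofReal (2 * (ε / 4) ^ 2)) +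
            ENNReal.ofReal (2 * C ^ 2) * ‖ζ (g • x)‖ₑ ^ 2) ∂ν := lintegral_mono_ae hpt
      _ = (ENNReal.ofReal (‖ω‖ ^ 2) * ν {x | coc Λ g x ∉ T} + ENNReal.ofReal (2 * (ε / 4) ^ 2)) +
            ENNReal.ofReal (2 * C ^ 2) * ∫⁻ x, ‖ζ (g • x)‖ₑ ^ 2 ∂ν := by
          have hm1 : Measurable fun x : E ⧸ Λ => {x | coc Λ g x ∉ T}.indicator
              (fun _ => ENNReal.ofReal (‖ω‖ ^ 2)) x + ENNReal.ofReal (2 * (ε / 4) ^ 2) :=
            (measurable_const.indicator hTm).add_const _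
          have hm0 : Measurable fun x : E ⧸ Λ => ‖ζ (g • x)‖ₑ ^ 2 :=
            (((Lp.stronglyMeasurable ζ).enorm).comp (smul_meas Λ g)).pow_const 2
          rw [lintegral_add_left hm1, lintegral_const_mul _ hm0,
            lintegral_add_left (measurable_const.indicator hTm), lintegral_indicator_const hTm]
          simp
      _ = (ENNReal.ofReal (‖ω‖ ^ 2) * ν {x | coc Λ g x ∉ T} + ENNReal.ofReal (2 * (ε / 4) ^ 2)) +
            ENNReal.ofReal (2 * C ^ 2) * ∫⁻ x, ‖ζ x‖ₑ ^ 2 ∂ν := by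
          congr 2
          have hm0 : Measurable fun x : E ⧸ Λ => ‖ζ x‖ₑ ^ 2 :=
            ((Lp.stronglyMeasurable ζ).enorm).pow_const 2
          exact hmp.lintegral_comp hm0
      _ ≤ _ := by
          gcongr
          rw [ENNReal.ofReal_mul (by positivity)]
          gcongr
          have := hT g hg
          rw [measureReal_def] at this
          rw [← ENNReal.ofReal_toReal (measure_ne_top ν {x | coc Λ g x ∉ T})]
          exact ENNReal.ofReal_le_ofReal this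
  rw [esq, esq, ← ENNReal.ofReal_mul (by positivity), ← ENNReal.ofReal_add (by positivity)
    (by positivity), ← ENNReal.ofReal_add (by positivity) (by positivity)] at hI
  have hI' := (ENNReal.ofReal_le_ofReal_iff (by positivity)).1 hI
  have c1 : ‖ω‖ ^ 2 * ε₁ ≤ ε ^ 2 / 4 := by
    rw [hε₁, mul_div_assoc', div_le_div_iff₀ (by positivity) (by positivity)]
    nlinarith [sq_nonneg ε, sq_nonneg ‖ω‖]
  have c2 : 2 * C ^ 2 * ‖ζ‖ ^ 2 ≤ ε ^ 2 / 2 := by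
    calc 2 * C ^ 2 * ‖ζ‖ ^ 2 ≤ 2 * C ^ 2 * (ε / (2 * C)) ^ 2 := by gcongr
      _ = ε ^ 2 / 2 := by field_simp
  have c3 : ‖ξ‖ ^ 2 ≤ ε ^ 2 := by nlinarith [sq_nonneg ε]
  exact (sq_le_sq₀ (norm_nonneg _) hε.le).1 c3

include hV in
/-- **The truncation.**  `B` commutes with `π(b)` and `π(g)`, `g ∈ O`.  Then the part of
`B π(b g)* Ω` seen by `Q` is small, as soon as the part of `π(b)* Ω` seen by `Q''` is small. -/
theorem carry_all [Countable I] (hρ : ∀ i v, ρ i * V v = V v * ρ i)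
    (ht : ∀ w : K, (∀ i, ⟪ρ i ω, w⟫_ℂ = 0) → w = 0) {O : Set E} (hO : IsCompact O)
    {Z : Set (K →L[ℂ] K)} (hz : ∀ v : Λ, ∀ ε : ℝ, 0 < ε → ∃ z ∈ Z, ∀ p : Λ, ‖(V v - z) (V p ω)‖ ≤ ε)
    (B : Lp K 2 ν →L[ℂ] Lp K 2 ν) {δ : ℝ} (hδ : 0 < δ) :
    ∃ (F : Finset I) (F' : Finset (K →L[ℂ] K)), (∀ z ∈ F', z ∈ Z) ∧ ∃ ε : ℝ, 0 < ε ∧
      ∀ Q Q' Q'' : K →L[ℂ] K, ‖Q‖ ≤ 1 → ‖Q'‖ ≤ 1 → (∀ i ∈ F, Q * ρ i = Q * ρ i * Q') →
        (∀ z ∈ F', Q' * z = Q' * z * Q'') → ∀ b : E,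
          ‖Q''.compLpL 2 ν (iro hν V b⁻¹ (Lp.const 2 ν ω))‖ ≤ ε → ∀ g ∈ O,
            B (iro hν V (b * g)⁻¹ (Lp.const 2 ν ω)) = iro hν V (b * g)⁻¹ (B (Lp.const 2 ν ω)) →
              ‖Q.compLpL 2 ν (B (iro hν V (b * g)⁻¹ (Lp.const 2 ν ω)))‖ ≤ δ := by
  obtain ⟨F, ε₁, hε₁, h1⟩ := carry hν hV hρ ht (B (Lp.const 2 ν ω)) δ hδ
  obtain ⟨F', hF', ε, hε, h2⟩ := carry_right hν hV hO hz hε₁
  refine ⟨F, F', hF', ε, hε, fun Q Q' Q'' hQ hQ' hQQ hQQ' b hb g hg hB => ?_⟩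
  rw [hB]
  exact h1 Q Q' hQ hQQ (b * g) (h2 Q' Q'' hQ' hQQ' b hb g hg)

/-- **All vectors.**  A decomposable operator is zero if it kills the vectors `ρ_i ω^`. -/
theorem dec_ext [Countable I] (ht : ∀ w : K, (∀ i, ⟪ρ i ω, w⟫_ℂ = 0) → w = 0)
    {T : Lp K 2 ν →L[ℂ] Lp K 2 ν} (hT : ∀ A, MeasurableSet A → T * ind ν K A = ind ν K A * T)
    (h0 : ∀ i, T (Lp.const 2 ν (ρ i ω)) = 0) : T = 0 := by
  have h1 : ∀ η ∈ Submodule.span ℂ {η : Lp K 2 ν | ∃ (A : Set (E ⧸ Λ)) (i : I), MeasurableSet A ∧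
      η = ind ν K A (Lp.const 2 ν (ρ i ω))}, T η = 0 := by
    intro η hη
    refine Submodule.span_induction (p := fun η _ => T η = 0) ?_ (map_zero T) ?_ ?_ hη
    · rintro _ ⟨A, i, hA, rfl⟩
      have e := congrArg (fun S : Lp K 2 ν →L[ℂ] Lp K 2 ν => S (Lp.const 2 ν (ρ i ω))) (hT A hA)
      change T (ind ν K A _) = ind ν K A (T _) at e
      rw [e, h0 i, map_zero]
    · intro a b _ _ ha hb
      rw [map_add, ha, hb, add_zero]
    · intro c a _ ha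
      rw [map_smul, ha, smul_zero]
  ext1 η
  have h2 : η ∈ (Submodule.span ℂ {η : Lp K 2 ν | ∃ (A : Set (E ⧸ Λ)) (i : I), MeasurableSet A ∧
      η = ind ν K A (Lp.const 2 ν (ρ i ω))}).topologicalClosure := by
    rw [total ht]; trivial
  have h3 : IsClosed {η : Lp K 2 ν | T η = 0} := isClosed_singleton.preimage T.continuous
  exact closure_minimal (fun η hη => h1 η hη) h3 h2

/-- A decomposable operator `T`, commuting with `(R₂ s)^`, is zero if it kills the vectors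
`(R₁ h ω)^` (the vectors `R₂ s R₁ h ω` being total). -/
theorem dec_ext2 {J : Type} [Countable I] [Countable J] {R₁ : I → K →L[ℂ] K} {R₂ : J → K →L[ℂ] K}
    (ht : ∀ w : K, (∀ i j, ⟪R₂ j (R₁ i ω), w⟫_ℂ = 0) → w = 0)
    {T : Lp K 2 ν →L[ℂ] Lp K 2 ν} (hT : ∀ A, MeasurableSet A → T * ind ν K A = ind ν K A * T)
    (hR : ∀ j, T * (R₂ j).compLpL 2 ν = (R₂ j).compLpL 2 ν * T)
    (h0 : ∀ i, T (Lp.const 2 ν (R₁ i ω)) = 0) : T = 0 := by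
  refine dec_ext (I := I × J) (ρ := fun p => R₂ p.2 * R₁ p.1) (ω := ω)
    (fun w hw => ht w fun i j => hw (i, j)) hT fun p => ?_
  have e := congrArg (fun S : Lp K 2 ν →L[ℂ] Lp K 2 ν => S (Lp.const 2 ν (R₁ p.1 ω))) (hR p.2)
  change T ((R₂ p.2).compLpL 2 ν _) = (R₂ p.2).compLpL 2 ν (T _) at e
  rw [comp_const, h0, map_zero] at e
  exact e

omit [CompleteSpace K] in
/-- The condition `Q ρ = Q ρ Q'` for the outsides `Q = 1 - P'`, `Q' = 1 - P`, when `ρ` carries the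
range of `P` into the range of `P'`. -/
theorem out_cond {P P' r : K →L[ℂ] K} (h : P' * r * P = r * P) :
    (1 - P') * r = (1 - P') * r * (1 - P) := by
  have : (1 - P') * r * P = 0 := by rw [sub_mul, sub_mul, one_mul, h, sub_self]
  rw [mul_sub, mul_one, this, sub_zero]

end carry

end Vale.Agent.P092.H368
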