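import Vale.Agent.P092.H368.Carry

/-!
P092 (helper368), team D, block [D-CNT] (3), frame letters: the vectors `R₁ a (R₂ s (ξ i))` are total,
`m S` is the multiplication by the indicator of `S ⊆ Γ₁` in the position of leg 1.
-/

set_option linter.all false

open scoped InnerProductSpace ENNReal
open Set Filter Topology MeasureTheory ContinuousLinearMap

namespace Vale.Agent.P092.H368

open Vale.Agent.P092.H790 Vale.Agent.P092.H85 Vale.Agent.P092.H103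

section carryF

variable {E : Type} [Group E] [TopologicalSpace E] [IsTopologicalGroup E] [LocallyCompactSpace E]
  [SecondCountableTopology E] [T2Space E] [MeasurableSpace E] [BorelSpace E]
  {Λ : Subgroup E} [DiscreteTopology Λ] [MeasurableSpace (E ⧸ Λ)] [BorelSpace (E ⧸ Λ)]
  {ν : Measure (E ⧸ Λ)} [IsProbabilityMeasure ν] (hν : ∀ g : E, ν.map (fun x => g • x) = ν)
  {K : Type} [NormedAddCommGroup K] [InnerProductSpace ℂ K] [CompleteSpace K]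
  {V : Λ →* (K →L[ℂ] K)} (hV : ∀ v, adjoint (V v) = V v⁻¹) [Countable Λ]
  {I κ : Type} {ρ : I → (K →L[ℂ] K)} {ξ : κ → K}

/-- `η` is a *carried* vector (frame form). -/
def CarF (V : Λ →* (K →L[ℂ] K)) (ρ : I → (K →L[ℂ] K)) (ξ : κ → K) (η : Lp K 2 ν) : Prop :=
  ∀ δ : ℝ, 0 < δ → ∃ F : Finset I, ∃ ε : ℝ, 0 < ε ∧ ∀ Q Q' : K →L[ℂ] K, ‖Q‖ ≤ 1 →
    (∀ i ∈ F, Q * ρ i = Q * ρ i * Q') → ∀ h : E,
      (∀ t, ‖Q'.compLpL 2 ν (iro hν V h⁻¹ (Lp.const 2 ν (ξ t)))‖ ≤ ε) →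
        ‖Q.compLpL 2 ν (iro hν V h⁻¹ η)‖ ≤ δ

theorem CarF.of_car {t : κ} {η : Lp K 2 ν} (h : Car hν V ρ (ξ t) η) : CarF hν V ρ ξ η := by
  intro δ hδ
  obtain ⟨F, ε, hε, h1⟩ := h δ hδ
  exact ⟨F, ε, hε, fun Q Q' hQ hQQ g hg => h1 Q Q' hQ hQQ g (hg t)⟩

theorem CarF.add {η η' : Lp K 2 ν} (h1 : CarF hν V ρ ξ η) (h2 : CarF hν V ρ ξ η') :
    CarF hν V ρ ξ (η + η') := by
  classical
  intro δ hδ
  obtain ⟨F, ε, hε, h⟩ := h1 (δ / 2) (by positivity)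
  obtain ⟨F', ε', hε', h'⟩ := h2 (δ / 2) (by positivity)
  refine ⟨F ∪ F', min ε ε', lt_min hε hε', fun Q Q' hQ hQQ g hg => ?_⟩
  have a1 := h Q Q' hQ (fun i hi => hQQ i (Finset.mem_union_left _ hi)) g
    (fun t => (hg t).trans (min_le_left _ _))
  have a2 := h' Q Q' hQ (fun i hi => hQQ i (Finset.mem_union_right _ hi)) g
    (fun t => (hg t).trans (min_le_right _ _))
  rw [map_add, map_add]
  exact (norm_add_le _ _).trans (by linarith)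

theorem CarF.smul {η : Lp K 2 ν} (c : ℂ) (h1 : CarF hν V ρ ξ η) : CarF hν V ρ ξ (c • η) := by
  intro δ hδ
  obtain ⟨F, ε, hε, h⟩ := h1 (δ / (‖c‖ + 1)) (by positivity)
  refine ⟨F, ε, hε, fun Q Q' hQ hQQ g hg => ?_⟩
  have a1 := h Q Q' hQ hQQ g hg
  rw [map_smul, map_smul, norm_smul]
  calc ‖c‖ * ‖Q.compLpL 2 ν (iro hν V g⁻¹ η)‖ ≤ (‖c‖ + 1) * (δ / (‖c‖ + 1)) := by
        gcongr; linarith
    _ = δ := by field_simp

theorem CarF.zero : CarF hν V ρ ξ (0 : Lp K 2 ν) := by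
  intro δ hδ
  refine ⟨∅, 1, one_pos, fun Q Q' hQ hQQ g hg => ?_⟩
  rw [map_zero, map_zero, norm_zero]
  exact hδ.le

include hV in
theorem CarF.lim {η : Lp K 2 ν} (h : ∀ r > 0, ∃ η' : Lp K 2 ν, CarF hν V ρ ξ η' ∧ ‖η - η'‖ ≤ r) :
    CarF hν V ρ ξ η := by
  intro δ hδ
  obtain ⟨η', hc, hn⟩ := h (δ / 2) (by positivity)
  obtain ⟨F, ε, hε, h⟩ := hc (δ / 2) (by positivity)
  refine ⟨F, ε, hε, fun Q Q' hQ hQQ g hg => ?_⟩
  have a1 := h Q Q' hQ hQQ g hg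
  have e1 : η = (η - η') + η' := by abel
  rw [e1, map_add, map_add]
  refine (norm_add_le _ _).trans ?_
  have a2 : ‖Q.compLpL 2 ν (iro hν V g⁻¹ (η - η'))‖ ≤ δ / 2 := by
    refine (comp_norm_le _ _).trans ?_
    calc ‖Q‖ * ‖iro hν V g⁻¹ (η - η')‖ ≤ 1 * (δ / 2) := by
          gcongr
          exact (iro_norm hν hV _ _).trans hn
      _ = δ / 2 := one_mul _
  linarith

/-- The vectors `1_A ρ_i ξ_t` are total. -/
theorem totalF [Countable I] [Countable κ] (ht : ∀ w : K, (∀ i t, ⟪ρ i (ξ t), w⟫_ℂ = 0) → w = 0) :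
    (Submodule.span ℂ {η : Lp K 2 ν | ∃ (A : Set (E ⧸ Λ)) (i : I) (t : κ), MeasurableSet A ∧
      η = ind ν K A (Lp.const 2 ν (ρ i (ξ t)))}).topologicalClosure = ⊤ := by
  rw [Submodule.topologicalClosure_eq_top_iff, Submodule.eq_bot_iff]
  intro η hη
  rw [Submodule.mem_orthogonal] at hη
  have h1 : ∀ p : I × κ, ∀ᵐ x ∂ν, ⟪ρ p.1 (ξ p.2), η x⟫_ℂ = 0 := by
    rintro ⟨i, t⟩
    have hint : Integrable (fun x => ⟪(Lp.const 2 ν (ρ i (ξ t)) : Lp K 2 ν) x, η x⟫_ℂ) ν :=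
      L2.integrable_inner _ _
    have c1 : ⇑(Lp.const 2 ν (ρ i (ξ t)) : Lp K 2 ν) =ᵐ[ν] fun _ => ρ i (ξ t) := Lp.coeFn_const ..
    have h2 : (fun x => ⟪(Lp.const 2 ν (ρ i (ξ t)) : Lp K 2 ν) x, η x⟫_ℂ) =ᵐ[ν] 0 := by
      refine Integrable.ae_eq_zero_of_forall_setIntegral_eq_zero hint fun A hA _ => ?_
      have h3 := hη (ind ν K A (Lp.const 2 ν (ρ i (ξ t))))
        (Submodule.subset_span ⟨A, i, t, hA, rfl⟩)
      rw [← h3, L2.inner_def, ← integral_indicator hA]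
      refine integral_congr_ae ?_
      filter_upwards [ind_ae hA (Lp.const 2 ν (ρ i (ξ t)) : Lp K 2 ν)] with x hx
      rw [hx]
      by_cases h : x ∈ A
      · rw [indicator_of_mem h, indicator_of_mem h]
      · rw [indicator_of_notMem h, indicator_of_notMem h, inner_zero_left]
    filter_upwards [h2, c1] with x a1 a2
    rw [a2] at a1
    exact a1
  refine Lp.ext ?_
  filter_upwards [ae_all_iff.2 h1, Lp.coeFn_zero K 2 ν] with x a1 a2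
  rw [a2]
  exact ht _ fun i t => a1 (i, t)

include hV in
/-- **Every vector is carried (frame form).** -/
theorem carryF [Countable I] [Countable κ] (hρ : ∀ i v, ρ i * V v = V v * ρ i)
    (ht : ∀ w : K, (∀ i t, ⟪ρ i (ξ t), w⟫_ℂ = 0) → w = 0) (η : Lp K 2 ν) :
    CarF hν V ρ ξ η := by
  refine CarF.lim hν hV fun r hr => ?_
  have h1 : η ∈ (Submodule.span ℂ {η : Lp K 2 ν | ∃ (A : Set (E ⧸ Λ)) (i : I) (t : κ),
      MeasurableSet A ∧ η = ind ν K A (Lp.const 2 ν (ρ i (ξ t)))}).topologicalClosure := by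
    rw [totalF ht]; trivial
  obtain ⟨η', hη', hd⟩ := Metric.mem_closure_iff.1 h1 r hr
  refine ⟨η', ?_, by rw [← dist_eq_norm]; exact hd.le⟩
  refine Submodule.span_induction (p := fun η _ => CarF hν V ρ ξ η) ?_ (CarF.zero hν) ?_ ?_ hη'
  · rintro _ ⟨A, i, t, hA, rfl⟩
    exact CarF.of_car hν (Car.base hν hV hρ i hA)
  · intro a b _ _ ha hb
    exact ha.add hν hb
  · intro c a _ ha
    exact ha.smul hν c

include hV in
/-- **Truncation, in the mask letters.**  For every `η` and `δ` there are a finite `F ⊆ Γ₁` and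
`ε > 0` such that, if `F S ⊆ S'` and the mass of `π(h)⁻¹ ξ_t^` outside `S` is at most `ε` for all
`t`, then the mass of `π(h)⁻¹ η` outside `S'` is at most `δ`. -/
theorem carry_msk {Γ₁ Γ₂ : Type} [Group Γ₁] [Countable Γ₁] [Countable Γ₂] [Countable κ]
    {R₁ : Γ₁ → (K →L[ℂ] K)} {R₂ : Γ₂ → (K →L[ℂ] K)} (h1 : ∀ a v, R₁ a * V v = V v * R₁ a)
    (h2 : ∀ s v, R₂ s * V v = V v * R₂ s)
    (ht : ∀ w : K, (∀ a s t, ⟪R₁ a (R₂ s (ξ t)), w⟫_ℂ = 0) → w = 0)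
    {m : Set Γ₁ → (K →L[ℂ] K)} (mn : ∀ S, ‖m S‖ ≤ 1) (mi : ∀ S T, m (S ∩ T) = m S * m T)
    (m1 : ∀ S a, m S * R₁ a = R₁ a * m {x | a * x ∈ S}) (m2 : ∀ S s, m S * R₂ s = R₂ s * m S)
    (η : Lp K 2 ν) {δ : ℝ} (hδ : 0 < δ) :
    ∃ (F : Finset Γ₁) (ε : ℝ), 0 < ε ∧ ∀ S S' : Set Γ₁, (∀ a ∈ F, ∀ x ∈ S, a * x ∈ S') →
      ∀ h : E, (∀ t, ‖(m Sᶜ).compLpL 2 ν (iro hν V h⁻¹ (Lp.const 2 ν (ξ t)))‖ ≤ ε) →
        ‖(m S'ᶜ).compLpL 2 ν (iro hν V h⁻¹ η)‖ ≤ δ := by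
  classical
  obtain ⟨F, ε, hε, h⟩ := carryF hν hV (ρ := fun p : Γ₁ × Γ₂ => R₁ p.1 * R₂ p.2) (ξ := ξ)
    (fun p v => by rw [mul_assoc, h2, ← mul_assoc, h1, mul_assoc])
    (fun w hw => ht w fun a s t => hw (a, s) t) η δ hδ
  refine ⟨F.image Prod.fst, ε, hε, fun S S' hS g hg => h _ _ (mn _) ?_ g hg⟩
  rintro ⟨a, s⟩ hi
  have ha : a ∈ F.image Prod.fst := Finset.mem_image.2 ⟨_, hi, rfl⟩
  have e1 : m S'ᶜ * (R₁ a * R₂ s) = R₁ a * R₂ s * m {x | a * x ∈ S'ᶜ} := by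
    rw [← mul_assoc, m1, mul_assoc, m2, ← mul_assoc]
  have e2 : {x | a * x ∈ S'ᶜ} ∩ Sᶜ = {x | a * x ∈ S'ᶜ} := by
    refine inter_eq_left.2 fun x hx hxS => hx (hS a ha x hxS)
  calc m S'ᶜ * (R₁ a * R₂ s) = R₁ a * R₂ s * m {x | a * x ∈ S'ᶜ} := e1
    _ = R₁ a * R₂ s * (m {x | a * x ∈ S'ᶜ} * m Sᶜ) := by rw [← mi, e2]
    _ = m S'ᶜ * (R₁ a * R₂ s) * m Sᶜ := by rw [e1]; simp only [mul_assoc]

end carryF

end Vale.Agent.P092.H368
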